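import Mathlib.LinearAlgebra.Matrix.Rank
import Mathlib.LinearAlgebra.Dual.Lemmas
import Mathlib.LinearAlgebra.FiniteDimensional.Lemmas
import Mathlib.Data.Fintype.Sum
import Mathlib.Algebra.BigOperators.Fin

/-! Exactness of the hexagon complex of a web on the sphere.

`e i : B ≃ W` three bijections, `F b c : V` the face of class `c` at the black `b`.  The corner
`(b, c)` separates the whites `e (c+1) b` and `e (c+2) b`. -/

namespace Vale.Agent.P039.Bar.H538

open Finset Module

theorem g12 (j : Fin 3) : j + 1 + 1 = j + 2 := by revert j; decide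
theorem g11 (j : Fin 3) : j + 2 + 1 = j := by revert j; decide
theorem g22 (j : Fin 3) : j + 2 + 2 = j + 1 := by revert j; decide
theorem gcase (i j : Fin 3) (h : i ≠ j) : j = i + 1 ∨ i = j + 1 := by revert i j; decide
theorem gcase3 (i : Fin 3) : i = 0 ∨ i = 1 ∨ i = 2 := by revert i; decide

/-- the data: `B` blacks, `W` whites, `V` faces; `conn`: the map is connected; `euler`: sphere -/
structure WD (B W V : Type*) [Fintype B] [Fintype W] [Fintype V] where
  e : Fin 3 → B ≃ W
  F : B → Fin 3 → V
  step : ∀ j b b', e (j + 1) b' = e (j + 2) b → F b' j = F b j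
  surj : ∀ v, ∃ b j, F b j = v
  conn : ∀ P : B → Prop, (∃ b, P b) → (∀ b b' i j, e i b = e j b' → P b → P b') → ∀ b, P b
  euler : Fintype.card V = Fintype.card B + 2
  ne : Nonempty B

variable {B W V : Type*} [Fintype B] [Fintype W] [Fintype V]
variable {K : Type*} [Field K]

namespace WD

variable (M : WD B W V)

/-- the coboundary of a function on the whites -/
def dW (n : W → K) : B × Fin 3 → K := fun x => n (M.e (x.2 + 1) x.1) - n (M.e (x.2 + 2) x.1)

/-- the linear map `n ↦ dW n` -/
def dL : (W → K) →ₗ[K] (B × Fin 3 → K) where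
  toFun n := M.dW n
  map_add' a b := by funext x; simp [dW]; ring
  map_smul' k a := by funext x; simp [dW]; ring

theorem dL_apply (n : W → K) : M.dL n = M.dW n := rfl

/-- sums over classes of a black vanish -/
theorem sum_dW_black {A : Type*} [AddCommGroup A] (n : W → A) (b : B) :
    ∑ c : Fin 3, (n (M.e (c + 1) b) - n (M.e (c + 2) b)) = 0 := by
  rw [Fin.sum_univ_three]
  show n (M.e 1 b) - n (M.e 2 b) + (n (M.e 2 b) - n (M.e 0 b)) + (n (M.e 0 b) - n (M.e 1 b)) = 0
  abel

/-- the next black around the face of class `j` -/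
def rho (j : Fin 3) : Equiv.Perm B := (M.e (j + 2)).trans (M.e (j + 1)).symm

theorem e_rho (j : Fin 3) (b : B) : M.e (j + 1) (M.rho j b) = M.e (j + 2) b := by
  simp [rho]

theorem F_rho (j : Fin 3) (b : B) : M.F (M.rho j b) j = M.F b j :=
  M.step j b (M.rho j b) (M.e_rho j b)

/-- sums around a face vanish -/
theorem sum_dW_face [DecidableEq V] {A : Type*} [AddCommGroup A] (n : W → A) (v : V) :
    ∑ c : Fin 3, ∑ b : B, (if M.F b c = v then n (M.e (c + 1) b) - n (M.e (c + 2) b) else 0) = 0 := by
  refine Finset.sum_eq_zero fun c _ => ?_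
  have h1 : ∑ b : B, (if M.F b c = v then n (M.e (c + 1) b) else 0)
      = ∑ b : B, (if M.F b c = v then n (M.e (c + 2) b) else 0) := by
    rw [← Equiv.sum_comp (M.rho c)]
    refine Finset.sum_congr rfl fun b _ => ?_
    rw [M.F_rho, M.e_rho]
  have h2 : ∀ b : B, (if M.F b c = v then n (M.e (c + 1) b) - n (M.e (c + 2) b) else 0)
      = (if M.F b c = v then n (M.e (c + 1) b) else 0)
        - (if M.F b c = v then n (M.e (c + 2) b) else 0) := by
    intro b; split_ifs <;> simp
  simp_rw [h2]
  rw [Finset.sum_sub_distrib, h1, sub_self]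

/-- a function on the whites with vanishing coboundary is constant -/
theorem const_of_dW {A : Type*} [AddGroup A] (n : W → A)
    (h : ∀ b c, n (M.e (c + 1) b) - n (M.e (c + 2) b) = 0) (w w' : W) : n w = n w' := by
  have h1 : ∀ b i j, n (M.e i b) = n (M.e j b) := by
    intro b i j
    have h0 := sub_eq_zero.1 (h b 0)
    have h1' := sub_eq_zero.1 (h b 1)
    have h2' := sub_eq_zero.1 (h b 2)
    have e0 : n (M.e 1 b) = n (M.e 2 b) := h0
    have e1 : n (M.e 2 b) = n (M.e 0 b) := h1'
    have e2 : n (M.e 0 b) = n (M.e 1 b) := h2'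
    rcases gcase3 i with rfl | rfl | rfl <;> rcases gcase3 j with rfl | rfl | rfl
    · rfl
    · exact e2
    · exact e1.symm
    · exact e2.symm
    · rfl
    · exact e0
    · exact e1
    · exact e0.symm
    · rfl
  have h2 : ∀ b, n (M.e 0 b) = n w := by
    refine M.conn (fun b => n (M.e 0 b) = n w) ⟨(M.e 0).symm w, by simp⟩ ?_
    intro b b' i j hij hb
    rw [h1 b' 0 j, ← hij, h1 b i 0]; exact hb
  have h3 := h2 ((M.e 0).symm w')
  simpa using h3.symm

theorem const_of_pair {A : Type*} (α : B → A) (β : V → A) (h : ∀ b c, α b = β (M.F b c))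
    (b₀ : B) : (∀ b, α b = α b₀) ∧ ∀ v, β v = α b₀ := by
  have key : ∀ b, α b = α b₀ := by
    refine M.conn (fun b => α b = α b₀) ⟨b₀, rfl⟩ ?_
    intro b b' i j hij hb
    -- `b` and `b'` share a face
    have hface : ∃ c c', M.F b c = M.F b' c' := by
      by_cases hij' : i = j
      · subst hij'
        have : b = b' := (M.e i).injective hij
        exact ⟨0, 0, by rw [this]⟩
      · -- consecutive colours
        rcases gcase i j hij' with h' | h'
        · refine ⟨i + 2, i + 2, ?_⟩
          apply M.step (i + 2) b' b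
          rw [g11, g22, ← h']; exact hij
        · refine ⟨j + 2, j + 2, ?_⟩
          symm
          apply M.step (j + 2) b b'
          rw [g11, g22, ← h']; exact hij.symm
    obtain ⟨c, c', hcc⟩ := hface
    rw [h b' c', ← hcc, ← h b c]; exact hb
  refine ⟨key, fun v => ?_⟩
  obtain ⟨b, j, rfl⟩ := M.surj v
  rw [← h b j]; exact key b

section rank

variable [DecidableEq B] [DecidableEq V]

/-- incidence matrix of the graph `J` of blacks and faces (edges = corners) -/
def incJ (K : Type*) [Field K] : Matrix (B ⊕ V) (B × Fin 3) K := fun y x =>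
  Sum.elim (fun b => if b = x.1 then (1 : K) else 0)
    (fun v => if M.F x.1 x.2 = v then (1 : K) else 0) y

theorem incJ_mulVec_inl (x : B × Fin 3 → K) (b : B) :
    (M.incJ K).mulVec x (Sum.inl b) = ∑ c, x (b, c) := by
  simp only [Matrix.mulVec, dotProduct, incJ, Sum.elim_inl]
  rw [Fintype.sum_prod_type]
  rw [Finset.sum_eq_single b]
  · simp
  · intro b' _ hb'
    simp [Ne.symm hb']
  · intro h; exact absurd (Finset.mem_univ b) h

theorem incJ_mulVec_inr (x : B × Fin 3 → K) (v : V) :
    (M.incJ K).mulVec x (Sum.inr v) = ∑ c, ∑ b, if M.F b c = v then x (b, c) else 0 := by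
  simp only [Matrix.mulVec, dotProduct, incJ, Sum.elim_inr]
  rw [Fintype.sum_prod_type, Finset.sum_comm]
  refine Finset.sum_congr rfl fun c _ => Finset.sum_congr rfl fun b _ => ?_
  split_ifs <;> simp

theorem incJ_transpose_mulVec (y : B ⊕ V → K) (x : B × Fin 3) :
    (M.incJ K).transpose.mulVec y x = y (Sum.inl x.1) + y (Sum.inr (M.F x.1 x.2)) := by
  simp only [Matrix.mulVec, dotProduct, incJ, Matrix.transpose_apply]
  rw [Fintype.sum_sum_type]
  simp

theorem finrank_le_one_of {E : Type*} [AddCommGroup E] [Module K E] [FiniteDimensional K E]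
    (S : Submodule K E) (v : E) (h : ∀ w ∈ S, ∃ k : K, w = k • v) : finrank K S ≤ 1 := by
  have : S ≤ Submodule.span K {v} := by
    intro w hw
    obtain ⟨k, rfl⟩ := h w hw
    exact Submodule.smul_mem _ _ (Submodule.mem_span_singleton_self v)
  refine (Submodule.finrank_mono this).trans ?_
  refine (finrank_span_le_card ({v} : Set E)).trans ?_
  simp

omit [DecidableEq B] [DecidableEq V] in
theorem finrank_ker_dL : finrank K (LinearMap.ker (M.dL (K := K))) ≤ 1 := by
  obtain ⟨b₀⟩ := M.ne
  refine finrank_le_one_of _ (fun _ => (1 : K)) fun n hn => ?_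
  refine ⟨n (M.e 0 b₀), ?_⟩
  have hn' : M.dW n = 0 := hn
  funext w
  have := M.const_of_dW n (fun b c => congrFun hn' (b, c)) w (M.e 0 b₀)
  simpa using this

theorem finrank_ker_T :
    finrank K (LinearMap.ker ((M.incJ K).transpose.mulVecLin)) ≤ 1 := by
  obtain ⟨b₀⟩ := M.ne
  refine finrank_le_one_of _ (Sum.elim (fun _ => (1 : K)) (fun _ => -1)) fun y hy => ?_
  refine ⟨y (Sum.inl b₀), ?_⟩
  have hy' : (M.incJ K).transpose.mulVec y = 0 := hy
  have h := M.const_of_pair (fun b => y (Sum.inl b)) (fun v => - y (Sum.inr v)) (fun b c => by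
    have := congrFun hy' (b, c)
    rw [incJ_transpose_mulVec] at this
    simp only [Pi.zero_apply] at this
    exact eq_neg_of_add_eq_zero_left this) b₀
  funext z
  rcases z with b | v
  · simpa using h.1 b
  · have := h.2 v
    simp only [Pi.smul_apply, Sum.elim_inr, smul_eq_mul, mul_neg, mul_one]
    rw [← this, neg_neg]

/-- exactness: every cycle of `J` is a coboundary of a function on the whites -/
theorem exists_of_cycle (x : B × Fin 3 → K) (hb : ∀ b, ∑ c, x (b, c) = 0)
    (hf : ∀ v, ∑ c, ∑ b, (if M.F b c = v then x (b, c) else 0) = 0) :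
    ∃ n : W → K, ∀ b c, x (b, c) = n (M.e (c + 1) b) - n (M.e (c + 2) b) := by
  classical
  set A := M.incJ K
  have hBW : Fintype.card W = Fintype.card B := (Fintype.card_congr (M.e 0)).symm
  -- dimension of the kernel
  have h1 : finrank K (LinearMap.range A.transpose.mulVecLin)
      + finrank K (LinearMap.ker A.transpose.mulVecLin) = Fintype.card B + Fintype.card V := by
    rw [LinearMap.finrank_range_add_finrank_ker]
    simp [Module.finrank_fintype_fun_eq_card]
  have h2 : finrank K (LinearMap.range A.mulVecLin)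
      + finrank K (LinearMap.ker A.mulVecLin) = Fintype.card B * 3 := by
    rw [LinearMap.finrank_range_add_finrank_ker]
    simp [Module.finrank_fintype_fun_eq_card]
  have h3 : finrank K (LinearMap.range A.transpose.mulVecLin)
      = finrank K (LinearMap.range A.mulVecLin) := by
    have := A.rank_transpose
    simpa [Matrix.rank] using this
  have h4 : finrank K (LinearMap.range (M.dL (K := K)))
      + finrank K (LinearMap.ker (M.dL (K := K))) = Fintype.card W := by
    rw [LinearMap.finrank_range_add_finrank_ker]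
    simp [Module.finrank_fintype_fun_eq_card]
  have h5 := M.finrank_ker_T (K := K)
  have h6 := M.finrank_ker_dL (K := K)
  have hle : LinearMap.range (M.dL (K := K)) ≤ LinearMap.ker A.mulVecLin := by
    rintro _ ⟨n, rfl⟩
    rw [LinearMap.mem_ker, Matrix.mulVecLin_apply]
    funext y
    rcases y with b | v
    · rw [incJ_mulVec_inl]; exact M.sum_dW_black n b
    · rw [incJ_mulVec_inr]; exact M.sum_dW_face n v
  have he := M.euler
  have heq : LinearMap.range (M.dL (K := K)) = LinearMap.ker A.mulVecLin := by
    apply Submodule.eq_of_le_of_finrank_le hle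
    change finrank K (LinearMap.ker A.transpose.mulVecLin) ≤ 1 at h5
    omega
  have hx : x ∈ LinearMap.ker A.mulVecLin := by
    rw [LinearMap.mem_ker, Matrix.mulVecLin_apply]
    funext y
    rcases y with b | v
    · rw [incJ_mulVec_inl]; exact hb b
    · rw [incJ_mulVec_inr]; exact hf v
  rw [← heq] at hx
  obtain ⟨n, hn⟩ := hx
  exact ⟨n, fun b c => (congrFun hn (b, c)).symm⟩

end rank

end WD

end Vale.Agent.P039.Bar.H538
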